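import Vale.Agent.P146.G0

/-! # P146: model objects and the list of intermediate statements -/

namespace Vale.Agent.P146

open MeasureTheory ProbabilityTheory Matrix

/-! ## Model objects -/

section model
variable {n : ℕ}

/-- Gibbs average. -/
noncomputable def gb (β : ℝ) (g : Edge n → ℝ) (φ : (Fin n → Bool) → ℝ) : ℝ :=
  (∑ σ, φ σ * Real.exp (β * ham g σ)) / ∑ σ : Fin n → Bool, Real.exp (β * ham g σ)

/-- Two-point function. -/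
noncomputable def M (β : ℝ) (i j : Fin n) (g : Edge n → ℝ) : ℝ :=
  gb β g fun σ => spin (σ i) * spin (σ j)

/-- Partial derivative of `M β i j` in the coupling `e`. -/
noncomputable def DM (β : ℝ) (i j : Fin n) (e : Edge n) (g : Edge n → ℝ) : ℝ :=
  β / √(n : ℝ) * (gb β g (fun σ => spin (σ i) * spin (σ j) * (spin (σ e.1.1) * spin (σ e.1.2)))
    - M β i j g * M β e.1.1 e.1.2 g)

/-- Edges at the site `i`. -/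
def row (i : Fin n) : Finset (Edge n) := Finset.univ.filter fun e => e.1.1 = i ∨ e.1.2 = i

/-- The other endpoint of an edge at `i`. -/
def oth (i : Fin n) (e : Edge n) : Fin n := if e.1.1 = i then e.1.2 else e.1.1

/-- The gauge flip at `i`. -/
def flp (i : Fin n) : Edge n → ℝ := fun e => if e ∈ row i then -1 else 1

/-- Disorder-chaos functional. -/
noncomputable def Phi (n : ℕ) (β r : ℝ) : ℝ :=
  ∑ i : Fin n, ∑ j : Fin n, cov r (M β i j) (M β i j)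

/-- Smoothed two-point function. -/
noncomputable def Bf (β τ : ℝ) (i j : Fin n) : (Edge n → ℝ) → ℝ := T (fun _ => τ) (M β i j)

/-- Smoothed two-point matrix. -/
noncomputable def Bm (β τ : ℝ) (x : Edge n → ℝ) : Matrix (Fin n) (Fin n) ℝ :=
  Matrix.of fun i j => Bf β τ i j x

/-- Row-resampled square of the smoothed two-point matrix. -/
noncomputable def Km (β τ : ℝ) (x : Edge n → ℝ) : Matrix (Fin n) (Fin n) ℝ :=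
  Matrix.of fun j k => ∑ i, T (off (row i)) (fun z => Bf β τ i j z * Bf β τ i k z) x

end model

/-- Squared Frobenius norm. -/
def fro {κ : Type} [Fintype κ] (A : Matrix κ κ ℝ) : ℝ := ∑ j, ∑ k, A j k ^ 2

/-- The bilinear form on matrices with kernel `q`. -/
def QF {κ : Type} [Fintype κ] (q : κ × κ → κ × κ → ℝ) (D E : Matrix κ κ ℝ) : ℝ :=
  ∑ p, ∑ p', q p p' * (D p.1 p.2 * E p'.1 p'.2)

/-! ## Gaussian statements -/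

def S_orth : Prop := ∀ (ι : Type) [Fintype ι] (a b c d : ι → ℝ),
  (∀ e, a e ^ 2 + b e ^ 2 = 1) → (∀ e, c e ^ 2 + d e ^ 2 = 1) → (∀ e, a e * c e + b e * d e = 0) →
  MeasurePreserving (fun p : (ι → ℝ) × (ι → ℝ) =>
    ((fun e => a e * p.1 e + b e * p.2 e), (fun e => c e * p.1 e + d e * p.2 e)))
    ((gam ι).prod (gam ι)) ((gam ι).prod (gam ι))

def S_nz : Prop := ∀ (ι : Type) [Fintype ι] (a : ι → ℝ), U01 a →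
  MeasurePreserving (fun p : (ι → ℝ) × (ι → ℝ) => nz a p.1 p.2) ((gam ι).prod (gam ι)) (gam ι)

def S_flip : Prop := ∀ (ι : Type) [Fintype ι] (ε : ι → ℝ), (∀ e, ε e ^ 2 = 1) →
  MeasurePreserving (fun x : ι → ℝ => ε * x) (gam ι) (gam ι)

def S_adj : Prop := ∀ (ι : Type) [Fintype ι] (a : ι → ℝ) (f h : (ι → ℝ) → ℝ), U01 a → EG f → EG h →
  ∫ x, f x * T a h x ∂gam ι = ∫ x, T a f x * h x ∂gam ι

def S_semi : Prop := ∀ (ι : Type) [Fintype ι] (a b : ι → ℝ) (f : (ι → ℝ) → ℝ),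
  U01 a → U01 b → EG f → T a (T b f) = T (a * b) f

def S_contr : Prop := ∀ (ι : Type) [Fintype ι] (a : ι → ℝ) (f : (ι → ℝ) → ℝ), U01 a → EG f →
  ∫ x, T a f x ∂gam ι = ∫ x, f x ∂gam ι ∧ ∫ x, T a f x ^ 2 ∂gam ι ≤ ∫ x, f x ^ 2 ∂gam ι

def S_covT : Prop := ∀ (ι : Type) [Fintype ι] (ρ τ : ℝ) (f h : (ι → ℝ) → ℝ),
  0 ≤ ρ → ρ ≤ 1 → 0 ≤ τ → τ ≤ 1 → EG f → EG h →
  cov (ρ * τ ^ 2) f h = cov ρ (T (fun _ => τ) f) (T (fun _ => τ) h)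

def S_covmono : Prop := ∀ (ι : Type) [Fintype ι] (r s : ℝ) (f : (ι → ℝ) → ℝ),
  0 ≤ r → r ≤ s → s ≤ 1 → EG f → 0 ≤ cov r f f ∧ cov r f f ≤ cov s f f

def S_covamgm : Prop := ∀ (ι : Type) [Fintype ι] (ρ u : ℝ) (f h : (ι → ℝ) → ℝ),
  0 ≤ ρ → ρ ≤ 1 → 0 ≤ u → u ≤ 1 → EG f → EG h →
  2 * cov (ρ * u) f h ≤ cov u f f + cov u h h

def S_covcont : Prop := ∀ (ι : Type) [Fintype ι] (f h : (ι → ℝ) → ℝ), EG f → EG h →
  ContinuousOn (fun r => cov r f h) (Set.Icc 0 1)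

def S_stein : Prop := ∀ (ι : Type) [Fintype ι] (f : (ι → ℝ) → ℝ) (D : ι → (ι → ℝ) → ℝ) (e : ι),
  C1 f D → ∫ x, x e * f x ∂gam ι = ∫ x, D e x ∂gam ι

def S_interp : Prop := ∀ (ι : Type) [Fintype ι] (f h : (ι → ℝ) → ℝ) (Df Dh : ι → (ι → ℝ) → ℝ)
  (ρ : ℝ), C1 f Df → C1 h Dh → 0 ≤ ρ → ρ ≤ 1 →
  cov ρ f h - (∫ x, f x ∂gam ι) * ∫ x, h x ∂gam ι =
    ∫ r in (0 : ℝ)..ρ, ∑ e, cov r (Df e) (Dh e)

def S_c1T : Prop := ∀ (ι : Type) [Fintype ι] (f : (ι → ℝ) → ℝ) (D : ι → (ι → ℝ) → ℝ) (τ : ℝ),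
  C1 f D → 0 ≤ τ → τ ≤ 1 → C1 (T (fun _ => τ) f) fun e x => τ * T (fun _ => τ) (D e) x

def S_c1mix : Prop := ∀ (ι : Type) [Fintype ι] [DecidableEq ι] (f : (ι → ℝ) → ℝ)
  (D : ι → (ι → ℝ) → ℝ) (I : Finset ι) (x : ι → ℝ), C1 f D →
  C1 (fun y => f (nz (off I) x y)) fun e y => if e ∈ I then D e (nz (off I) x y) else 0

def S_c1mul : Prop := ∀ (ι : Type) [Fintype ι] (f g : (ι → ℝ) → ℝ) (D D' : ι → (ι → ℝ) → ℝ),
  C1 f D → C1 g D' → C1 (fun x => f x * g x) fun e x => D e x * g x + f x * D' e x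

def S_c1lin : Prop := ∀ (ι α : Type) [Fintype ι] (s : Finset α) (u : α → ℝ) (c : ℝ)
  (F : α → (ι → ℝ) → ℝ) (D : α → ι → (ι → ℝ) → ℝ), (∀ a ∈ s, C1 (F a) (D a)) →
  C1 (fun x => ∑ a ∈ s, u a * F a x - c) fun e x => ∑ a ∈ s, u a * D a e x

def S_poin : Prop := ∀ (ι : Type) [Fintype ι] [DecidableEq ι] (f : (ι → ℝ) → ℝ)
  (D : ι → (ι → ℝ) → ℝ) (I : Finset ι), C1 f D →
  ∫ x, (f x - T (off I) f x) ^ 2 ∂gam ι ≤ ∑ e ∈ I, ∫ x, D e x ^ 2 ∂gam ι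

def S_smooth : Prop := ∀ (ι : Type) [Fintype ι] (f : (ι → ℝ) → ℝ) (D : ι → (ι → ℝ) → ℝ) (τ : ℝ),
  C1 f D → 0 ≤ τ → τ ≤ 1 →
  (1 - τ ^ 2) * ∑ e, ∫ x, T (fun _ => τ) (D e) x ^ 2 ∂gam ι ≤ ∫ x, f x ^ 2 ∂gam ι

def S_es : Prop := ∀ (ι κ : Type) [Fintype ι] [DecidableEq ι] [Fintype κ]
  (Y : κ → (ι → ℝ) → ℝ) (I : κ → Finset ι), (∀ i, EG (Y i)) →
  ∫ x, (∑ i, (T (off (I i)) (Y i) x - Y i x)) ^ 2 ∂gam ι ≤
    ∑ i, ∑ i', ∫ x, (Y i x - T (off (I i')) (Y i) x) ^ 2 ∂gam ι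

def S_resample : Prop := ∀ (ι : Type) [Fintype ι] [DecidableEq ι] (f h : (ι → ℝ) → ℝ)
  (I : Finset ι) (ρ : ℝ), EG f → EG h → 0 ≤ ρ → ρ ≤ 1 →
  (EG fun p : (ι → ℝ) × (ι → ℝ) => cov ρ (fun y => f (nz (off I) p.1 y))
      (fun y => h (nz (off I) (nz (fun _ => ρ) p.1 p.2) y))) ∧
  ∫ p : (ι → ℝ) × (ι → ℝ), cov ρ (fun y => f (nz (off I) p.1 y))
      (fun y => h (nz (off I) (nz (fun _ => ρ) p.1 p.2) y)) ∂(gam ι).prod (gam ι) = cov ρ f h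

/-- A family of centred gradient fields: `W a j` has partial derivative `H a j (o a e)` in the
coordinates `e ∈ I a`, with `H a` symmetric. -/
structure GF {ι κ : Type} [Fintype ι] [DecidableEq ι] [Fintype κ] (I : κ → Finset ι)
    (o : κ → ι → κ) (W : κ → κ → (ι → ℝ) → ℝ) (H : κ → κ → κ → (ι → ℝ) → ℝ) : Prop where
  c1 : ∀ a j, C1 (W a j) fun e y => if e ∈ I a then H a j (o a e) y else 0
  eg : ∀ a j k, EG (H a j k)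
  sym : ∀ a j k, H a j k = H a k j
  diag : ∀ a j, H a j a = fun _ => 0
  mean : ∀ a j, ∫ y, W a j y ∂gam ι = 0

/-- Gram matrix of a family of vector fields. -/
noncomputable def gram {ι κ : Type} [Fintype ι] [Fintype κ] (W : κ → κ → (ι → ℝ) → ℝ) :
    Matrix κ κ ℝ := Matrix.of fun j k => ∑ a, ∫ y, W a j y * W a k y ∂gam ι

def S_grad : Prop := ∀ (ι κ : Type) [Fintype ι] [DecidableEq ι] [Fintype κ] [DecidableEq κ]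
  (I : κ → Finset ι) (o : κ → ι → κ) (W W' : κ → κ → (ι → ℝ) → ℝ)
  (H H' : κ → κ → κ → (ι → ℝ) → ℝ) (ρ : ℝ),
  (∀ (a : κ) (ψ : κ → ℝ), ψ a = 0 → ∑ e ∈ I a, ψ (o a e) = ∑ k, ψ k) →
  GF I o W H → GF I o W' H' → 0 ≤ ρ → ρ ≤ 1 →
  ∃ q : κ × κ → κ × κ → ℝ, (∀ p p', q p p' = q p' p) ∧
    (∀ D E : Matrix κ κ ℝ, 2 * QF q D E ≤ (Dᵀ * gram W * D).trace + (E * gram W' * Eᵀ).trace) ∧
    ∑ a, ∑ j, cov ρ (W a j) (W' a j) = ρ * QF q 1 1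

/-! ## Linear algebra -/

def S_nc : Prop := ∀ (κ : Type) [Fintype κ] [DecidableEq κ] (q : κ × κ → κ × κ → ℝ)
  (K K' : Matrix κ κ ℝ), (∀ p p', q p p' = q p' p) → K.PosDef → K'.PosDef →
  (∀ D E : Matrix κ κ ℝ, 2 * QF q D E ≤ (Dᵀ * K * D).trace + (E * K' * Eᵀ).trace) →
  ∃ A A' : Matrix κ κ ℝ, A.PosSemidef ∧ A'.PosSemidef ∧ A * A = K ∧ A' * A' = K' ∧
    QF q 1 1 ≤ (A * A').trace

def S_perta : Prop := ∀ (κ : Type) [Fintype κ] [DecidableEq κ] (A B C : Matrix κ κ ℝ) (l : ℝ),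
  A.PosSemidef → B.PosSemidef → C.PosSemidef → 0 < l →
  ((A - B) * C).trace ≤ (l + fro (A * A - B * B) / l ^ 3) * C.trace

def S_pertb : Prop := ∀ (κ : Type) [Fintype κ] [DecidableEq κ] (A B : Matrix κ κ ℝ) (l : ℝ),
  A.PosSemidef → B.PosSemidef → 0 < l →
  fro (A - B) ≤ 2 * (A * A - B * B).trace + 2 * l * B.trace + fro (A * A - B * B) / l ^ 2

def S_det : Prop := ∀ (κ : Type) [Fintype κ] [DecidableEq κ] (q : κ × κ → κ × κ → ℝ)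
  (K K' B B' : Matrix κ κ ℝ) (N l : ℝ), (∀ p p', q p p' = q p' p) → K.PosDef → K'.PosDef →
  B.PosSemidef → B'.PosSemidef → B.trace ≤ N → B'.trace ≤ N → 0 < l →
  (∀ D E : Matrix κ κ ℝ, 2 * QF q D E ≤ (Dᵀ * K * D).trace + (E * K' * Eᵀ).trace) →
  QF q 1 1 ≤ (B * B').trace + 4 * l * N
    + (N / l ^ 3 + 1 / (2 * l ^ 2)) * (fro (K - B * B) + fro (K' - B' * B'))
    + ((K - B * B).trace + (K' - B' * B').trace)

/-! ## The model -/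

def S_comb : Prop := ∀ n : ℕ,
  (∀ (i : Fin n) (ψ : Fin n → ℝ), ψ i = 0 → ∑ e ∈ row i, ψ (oth i e) = ∑ k, ψ k) ∧
  (∀ φ : Edge n → ℝ, ∑ i, ∑ e ∈ row i, φ e = 2 * ∑ e, φ e) ∧
  (∀ ψ : Fin n → Fin n → ℝ, (∀ i j, 0 ≤ ψ i j) →
    ∑ e : Edge n, ψ e.1.1 e.1.2 ≤ ∑ i, ∑ j, ψ i j)

def S_M : Prop := ∀ (n : ℕ) (β : ℝ),
  (∀ (i j : Fin n) g, |M β i j g| ≤ 1) ∧ (∀ i j : Fin n, M β i j = M β j i) ∧
  (∀ (i : Fin n) g, M β i i g = 1) ∧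
  (∀ (v : Fin n → ℝ) g, 0 ≤ ∑ i, ∑ j, v i * v j * M β i j g) ∧
  (∀ (i j : Fin n) g, j ≠ i → M β i j (flp i * g) = -M β i j g) ∧
  (∀ (i j : Fin n) (e : Edge n) g, e ∈ row i → DM β i j e g =
    β / √(n : ℝ) * (M β j (oth i e) g - M β i j g * M β i (oth i e) g))

def S_Mc1 : Prop := ∀ (n : ℕ) (β : ℝ),
  (∀ i j : Fin n, C1 (M β i j) (DM β i j)) ∧
  C1 (freeEnergy n β) fun e g => β / √(n : ℝ) * M β e.1.1 e.1.2 g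

def S_B : Prop := ∀ (n : ℕ) (β τ : ℝ), 0 ≤ τ → τ ≤ 1 →
  (∀ (i j : Fin n) x, |Bf β τ i j x| ≤ 1) ∧ (∀ i j : Fin n, Bf β τ i j = Bf β τ j i) ∧
  (∀ (i : Fin n) x, Bf β τ i i x = 1) ∧ (∀ x : Edge n → ℝ, (Bm β τ x).PosSemidef) ∧
  (∀ (i j : Fin n) x, T (off (row i)) (Bf β τ i j) x = if i = j then 1 else 0)

def S_delta : Prop := ∀ (n : ℕ) (β τ : ℝ), 0 ≤ τ → τ < 1 →
  (EG fun x : Edge n → ℝ => fro (Km β τ x - Bm β τ x * Bm β τ x)) ∧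
  (EG fun x : Edge n → ℝ => (Km β τ x - Bm β τ x * Bm β τ x).trace) ∧
  ∫ x, fro (Km β τ x - Bm β τ x * Bm β τ x) ∂gam (Edge n) ≤ 8 * (n : ℝ) ^ 3 / (1 - τ ^ 2) ∧
  ∫ x, (Km β τ x - Bm β τ x * Bm β τ x).trace ∂gam (Edge n) = 0

/-- The pointwise inequality at a pair of disorders. -/
def S_point : Prop := ∀ (n : ℕ) (β τ ρ l : ℝ) (x x' : Edge n → ℝ),
  0 ≤ τ → τ ≤ 1 → 0 ≤ ρ → ρ ≤ 1 → 0 < l →
  ∑ i, ∑ j, cov ρ (fun y => Bf β τ i j (nz (off (row i)) x y) - if i = j then 1 else 0)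
      (fun y => Bf β τ i j (nz (off (row i)) x' y) - if i = j then 1 else 0) ≤
    ρ * ((Bm β τ x * Bm β τ x').trace + 4 * l * n
      + (n / l ^ 3 + 1 / (2 * l ^ 2)) * (fro (Km β τ x - Bm β τ x * Bm β τ x)
        + fro (Km β τ x' - Bm β τ x' * Bm β τ x'))
      + ((Km β τ x - Bm β τ x * Bm β τ x).trace + (Km β τ x' - Bm β τ x' * Bm β τ x').trace))

def S_step : Prop := ∀ (n : ℕ) (β τ ρ l : ℝ), 0 ≤ τ → τ < 1 → 0 ≤ ρ → ρ ≤ 1 → 0 < l →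
  Phi n β (ρ * τ ^ 2) ≤ n + ρ * (Phi n β (ρ * τ ^ 2) + 4 * l * n
    + (n / l ^ 3 + 1 / (2 * l ^ 2)) * (16 * (n : ℝ) ^ 3 / (1 - τ ^ 2)))

def S_calc : Prop := ∃ C : ℝ, 0 ≤ C ∧ ∀ (N : ℝ) (Φ : ℝ → ℝ), 1 ≤ N →
  ContinuousOn Φ (Set.Icc 0 1) → (∀ r, 0 ≤ r → r ≤ 1 → 0 ≤ Φ r ∧ Φ r ≤ N ^ 2) →
  (∀ τ ρ l : ℝ, 0 ≤ τ → τ < 1 → 0 ≤ ρ → ρ ≤ 1 → 0 < l →
    Φ (ρ * τ ^ 2) ≤ N + ρ * (Φ (ρ * τ ^ 2) + 4 * l * N
      + (N / l ^ 3 + 1 / (2 * l ^ 2)) * (16 * N ^ 3 / (1 - τ ^ 2)))) →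
  ∫ r in (0 : ℝ)..1, Φ r ≤ C * N ^ (9 / 5 : ℝ)

/-- Variance representation and the trivial bounds on `Phi`. -/
def S_var : Prop := ∀ (n : ℕ) (β : ℝ), 1 ≤ n →
  ContinuousOn (Phi n β) (Set.Icc 0 1) ∧
  (∀ r, 0 ≤ r → r ≤ 1 → 0 ≤ Phi n β r ∧ Phi n β r ≤ (n : ℝ) ^ 2) ∧
  variance (freeEnergy n β) (disorder n) ≤ β ^ 2 / n * ∫ r in (0 : ℝ)..1, Phi n β r

def S_main : Prop := ∃ C : ℝ, ∀ (β : ℝ) (n : ℕ), 1 ≤ n →
  variance (freeEnergy n β) (disorder n) ≤ C * β ^ 2 * (n : ℝ) ^ (4 / 5 : ℝ)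

theorem main_of (h_var : S_var) (h_step : S_step) (h_calc : S_calc) : S_main := by
  obtain ⟨C, hC, h⟩ := h_calc
  refine ⟨C, fun β n hn => ?_⟩
  obtain ⟨h1, h2, h3⟩ := h_var n β hn
  have hn1 : (1 : ℝ) ≤ n := by exact_mod_cast hn
  have hn0 : (0 : ℝ) < n := by linarith
  have h4 := h n (Phi n β) hn1 h1 h2 (h_step n β)
  refine h3.trans ((mul_le_mul_of_nonneg_left h4 (by positivity)).trans (le_of_eq ?_))
  have : (n : ℝ) ^ (9 / 5 : ℝ) = (n : ℝ) ^ (4 / 5 : ℝ) * n := by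
    rw [← Real.rpow_add_one hn0.ne']
    norm_num
  rw [this]
  field_simp

end Vale.Agent.P146
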